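import Vale.Agent.P127.Stk.LibCopies
import Vale.Agent.P127.Stk.LibDom
import Vale.Agent.P127.Stk.LibFloors

/-!
# P127 / U / H715 : generic translations (no carries)

`gen_shift` : for finitely many real variables `z i` with lengths `η i` and levels `n i` there is a
translation `ξ ∈ (0,1]` such that the expected number of points of `2^-(n i) ℤ` in
`(z i + ξ, z i + ξ + η i]` is at most `∑ 2^(n i) η i`.
-/

set_option autoImplicit false

namespace Vale.Agent.P127.U.H715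

open Finset MeasureTheory Vale.Agent.P127 Vale.Agent.P127.Stk

/-- the number of points of `2^-n ℤ` in `(x, x + η]` -/
noncomputable def cnt (n : ℕ) (x η : ℝ) : ℝ :=
  (⌊(2 : ℝ) ^ n * (x + η)⌋ : ℝ) - (⌊(2 : ℝ) ^ n * x⌋ : ℝ)

lemma cnt_nonneg (n : ℕ) (x : ℝ) {η : ℝ} (h : 0 ≤ η) : 0 ≤ cnt n x η := by
  unfold cnt
  rw [sub_nonneg, Int.cast_le]
  exact Int.floor_le_floor (mul_le_mul_of_nonneg_left (by linarith) (by positivity))

lemma cnt_periodic (n : ℕ) (x : ℝ) : Function.Periodic (fun ξ => Int.fract ((2 : ℝ) ^ n * (x + ξ)))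
    1 := by
  intro ξ
  have h : (2 : ℝ) ^ n * (x + (ξ + 1)) = (2 : ℝ) ^ n * (x + ξ) + ((2 ^ n : ℤ) : ℝ) := by
    push_cast
    ring
  simp only
  rw [h, Int.fract_add_intCast]

lemma meas_fract (n : ℕ) (x : ℝ) : Measurable fun ξ : ℝ => Int.fract ((2 : ℝ) ^ n * (x + ξ)) :=
  measurable_fract.comp ((measurable_const.add measurable_id).const_mul _)

lemma int_fract (n : ℕ) (x a b : ℝ) :
    IntervalIntegrable (fun ξ : ℝ => Int.fract ((2 : ℝ) ^ n * (x + ξ))) volume a b := by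
  refine (intervalIntegrable_const (c := (1 : ℝ))).mono_fun
    (meas_fract n x).aestronglyMeasurable ?_
  filter_upwards with ξ
  rw [Real.norm_eq_abs, abs_of_nonneg (Int.fract_nonneg _), norm_one]
  exact (Int.fract_lt_one _).le

lemma cnt_eq (n : ℕ) (x η ξ : ℝ) : cnt n (x + ξ) η = (2 : ℝ) ^ n * η -
    (Int.fract ((2 : ℝ) ^ n * ((x + η) + ξ)) - Int.fract ((2 : ℝ) ^ n * (x + ξ))) := by
  unfold cnt
  have h1 := Int.floor_add_fract ((2 : ℝ) ^ n * ((x + η) + ξ))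
  have h2 := Int.floor_add_fract ((2 : ℝ) ^ n * (x + ξ))
  have h3 : (2 : ℝ) ^ n * (x + ξ + η) = (2 : ℝ) ^ n * ((x + η) + ξ) := by ring
  rw [h3]
  have h4 : (2 : ℝ) ^ n * ((x + η) + ξ) = (2 : ℝ) ^ n * (x + ξ) + (2 : ℝ) ^ n * η := by ring
  linarith

/-- the mean of the number of grid points over a period -/
lemma int_cnt (n : ℕ) (x η : ℝ) :
    ∫ ξ in (0 : ℝ)..1, cnt n (x + ξ) η = (2 : ℝ) ^ n * η := by
  have e : (fun ξ => cnt n (x + ξ) η) = fun ξ => (2 : ℝ) ^ n * η -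
      (Int.fract ((2 : ℝ) ^ n * ((x + η) + ξ)) - Int.fract ((2 : ℝ) ^ n * (x + ξ))) :=
    funext fun ξ => cnt_eq n x η ξ
  rw [e, intervalIntegral.integral_sub (intervalIntegrable_const)
    ((int_fract n (x + η) 0 1).sub (int_fract n x 0 1)),
    intervalIntegral.integral_sub (int_fract n (x + η) 0 1) (int_fract n x 0 1),
    intervalIntegral.integral_const]
  have h1 : ∫ ξ in (0 : ℝ)..1, Int.fract ((2 : ℝ) ^ n * ((x + η) + ξ)) =
      ∫ ξ in (0 : ℝ)..1, Int.fract ((2 : ℝ) ^ n * (x + ξ)) := by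
    have h2 := intervalIntegral.integral_comp_add_right (a := (0 : ℝ)) (b := 1)
      (fun ξ => Int.fract ((2 : ℝ) ^ n * (x + ξ))) η
    have h3 : ∫ ξ in (0 : ℝ)..1, Int.fract ((2 : ℝ) ^ n * ((x + η) + ξ)) =
        ∫ ξ in (0 : ℝ)..1, Int.fract ((2 : ℝ) ^ n * (x + (ξ + η))) := by
      congr 1
      funext ξ
      congr 2
      ring
    rw [h3, h2]
    have h4 := (cnt_periodic n x).intervalIntegral_add_eq (0 + η) 0
    have e1 : (0 : ℝ) + η + 1 = 1 + η := by ring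
    have e2 : (0 : ℝ) + 1 = 1 := by norm_num
    rw [e1, zero_add, e2] at h4
    rw [zero_add]
    exact h4
  rw [h1]
  simp

lemma int_cnt' (n : ℕ) (x η a b : ℝ) :
    IntervalIntegrable (fun ξ => cnt n (x + ξ) η) volume a b := by
  have e : (fun ξ => cnt n (x + ξ) η) = fun ξ => (2 : ℝ) ^ n * η -
      (Int.fract ((2 : ℝ) ^ n * ((x + η) + ξ)) - Int.fract ((2 : ℝ) ^ n * (x + ξ))) :=
    funext fun ξ => cnt_eq n x η ξ
  rw [e]
  exact intervalIntegrable_const.sub ((int_fract n (x + η) a b).sub (int_fract n x a b))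

variable {Ω : Type} [Fintype Ω] {ι : Type*}

/-- **generic translation** -/
theorem gen_shift (P : Law Ω) (s : Finset ι) (n : ι → Ω → ℕ) (z η : ι → Ω → ℝ) :
    ∃ ξ : ℝ, 0 < ξ ∧ ξ ≤ 1 ∧ ∑ i ∈ s, P.ex (fun ω => cnt (n i ω) (z i ω + ξ) (η i ω)) ≤
      ∑ i ∈ s, P.ex fun ω => (2 : ℝ) ^ (n i ω) * η i ω := by
  set g : ℝ → ℝ := fun ξ => ∑ i ∈ s, P.ex (fun ω => cnt (n i ω) (z i ω + ξ) (η i ω)) with hg
  have hint : ∀ i ω, IntervalIntegrable (fun ξ => P.w ω * cnt (n i ω) (z i ω + ξ) (η i ω)) volume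
      0 1 := fun i ω => (int_cnt' _ _ _ _ _).const_mul _
  have hsum : ∀ i, IntervalIntegrable (fun ξ => ∑ ω, P.w ω * cnt (n i ω) (z i ω + ξ) (η i ω))
      volume 0 1 := fun i => by
    have h := IntervalIntegrable.sum Finset.univ fun ω (_ : ω ∈ Finset.univ) => hint i ω
    have e : (fun ξ => ∑ ω, P.w ω * cnt (n i ω) (z i ω + ξ) (η i ω)) =
        ∑ ω, fun ξ => P.w ω * cnt (n i ω) (z i ω + ξ) (η i ω) := by
      funext ξ
      rw [Finset.sum_apply]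
    rw [e]
    exact h
  have h1 : ∫ ξ in (0 : ℝ)..1, g ξ = ∑ i ∈ s, P.ex fun ω => (2 : ℝ) ^ (n i ω) * η i ω := by
    rw [hg]
    simp only [Law.ex]
    rw [intervalIntegral.integral_finsetSum fun i _ => hsum i]
    refine Finset.sum_congr rfl fun i _ => ?_
    rw [intervalIntegral.integral_finsetSum fun ω _ => hint i ω]
    refine Finset.sum_congr rfl fun ω _ => ?_
    rw [intervalIntegral.integral_const_mul, int_cnt]
  have hgi : IntervalIntegrable g volume 0 1 := by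
    rw [hg]
    simp only [Law.ex]
    have h := IntervalIntegrable.sum s fun i (_ : i ∈ s) => hsum i
    have e : (fun ξ => ∑ i ∈ s, ∑ ω, P.w ω * cnt (n i ω) (z i ω + ξ) (η i ω)) =
        ∑ i ∈ s, fun ξ => ∑ ω, P.w ω * cnt (n i ω) (z i ω + ξ) (η i ω) := by
      funext ξ
      rw [Finset.sum_apply]
    rw [e]
    exact h
  by_contra hc
  push Not at hc
  set c := ∑ i ∈ s, P.ex fun ω => (2 : ℝ) ^ (n i ω) * η i ω with hcdef
  have h2 : ∫ ξ in (0 : ℝ)..1, (g ξ - c) = 0 := by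
    rw [intervalIntegral.integral_sub hgi intervalIntegrable_const, h1]
    simp
  have h3 : 0 < ∫ ξ in (0 : ℝ)..1, (g ξ - c) := by
    refine intervalIntegral.intervalIntegral_pos_of_pos_on (hgi.sub intervalIntegrable_const) ?_
      one_pos
    intro ξ hξ
    have := hc ξ hξ.1 hξ.2.le
    exact sub_pos.2 this
  linarith

/-- no grid point, no change of the digits -/
lemma fl1_eq_of_cnt (n : ℕ) {x η y : ℝ} (h : cnt n x η < 1) (h1 : x ≤ y)
    (h2 : y ≤ x + η) : fl1 n y = fl1 n x := by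
  have h3 : (⌊(2 : ℝ) ^ n * (x + η)⌋ : ℝ) < (⌊(2 : ℝ) ^ n * x⌋ : ℝ) + 1 := by
    unfold cnt at h
    linarith
  have h4 : ⌊(2 : ℝ) ^ n * (x + η)⌋ < ⌊(2 : ℝ) ^ n * x⌋ + 1 := by exact_mod_cast h3
  have h5 : ⌊(2 : ℝ) ^ n * x⌋ ≤ ⌊(2 : ℝ) ^ n * y⌋ :=
    Int.floor_le_floor (mul_le_mul_of_nonneg_left h1 (by positivity))
  have h6 : ⌊(2 : ℝ) ^ n * y⌋ ≤ ⌊(2 : ℝ) ^ n * (x + η)⌋ :=
    Int.floor_le_floor (mul_le_mul_of_nonneg_left h2 (by positivity))
  unfold fl1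
  omega

/-- probability that some check fails -/
theorem gen_prob (P : Law Ω) (s : Finset ι) (n : ι → Ω → ℕ) (z η : ι → Ω → ℝ)
    (hη : ∀ i ∈ s, ∀ ω, 0 ≤ η i ω) :
    ∃ ξ : ℝ, 0 < ξ ∧ ξ ≤ 1 ∧
      prE P (fun ω => ∃ i ∈ s, ∃ y : ℝ, z i ω + ξ ≤ y ∧ y ≤ z i ω + ξ + η i ω ∧
        fl1 (n i ω) y ≠ fl1 (n i ω) (z i ω + ξ)) ≤
      ∑ i ∈ s, P.ex fun ω => (2 : ℝ) ^ (n i ω) * η i ω := by
  classical
  obtain ⟨ξ, h0, h1, h2⟩ := gen_shift P s n z η
  refine ⟨ξ, h0, h1, le_trans ?_ h2⟩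
  have e1 : ∑ i ∈ s, P.ex (fun ω => cnt (n i ω) (z i ω + ξ) (η i ω)) =
      P.ex (fun ω => ∑ i ∈ s, cnt (n i ω) (z i ω + ξ) (η i ω)) := by
    unfold Law.ex
    rw [Finset.sum_comm]
    exact Finset.sum_congr rfl fun ω _ => by rw [Finset.mul_sum]
  rw [e1]
  unfold prE Law.ex
  rw [Finset.sum_filter]
  refine Finset.sum_le_sum fun ω _ => ?_
  split_ifs with hE
  · obtain ⟨i, hi, y, h3, h4, h5⟩ := hE
    have h6 : 1 ≤ cnt (n i ω) (z i ω + ξ) (η i ω) := by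
      by_contra hlt
      exact h5 (fl1_eq_of_cnt _ (not_le.1 hlt) h3 h4)
    have h7 : cnt (n i ω) (z i ω + ξ) (η i ω) ≤ ∑ i ∈ s, cnt (n i ω) (z i ω + ξ) (η i ω) :=
      Finset.single_le_sum (f := fun i => cnt (n i ω) (z i ω + ξ) (η i ω))
        (fun j hj => cnt_nonneg _ _ (hη j hj ω)) hi
    nlinarith [P.nn ω]
  · exact mul_nonneg (P.nn ω) (Finset.sum_nonneg fun j hj => cnt_nonneg _ _ (hη j hj ω))

end Vale.Agent.P127.U.H715
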