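import Vale.Agent.P127.U.Mic.Props
import Vale.Agent.P127.U.H715.Gen

/-!
# P127 / U / H715 : a generic translation (helper715)

* `cell_diff` : two lines with the same `(box h q, y1 to b)` have nearly the same coordinates in the
  frame of every step `i ≤ n`.
* `base_eq_of_box` : outside `Bad i b` they have the same cell `base i b`.
* `amb_le` : the ambiguity is at most the probability of `Bad`.
* `pTrn : PTrn`.
-/

set_option autoImplicit false

namespace Vale.Agent.P127.U.H715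

open Finset Vale.Agent.P127 Vale.Agent.P127.Stk Vale.Agent.P127.U.CellD Vale.Agent.P127.U.Mic

section prE

variable {Ω : Type} [Fintype Ω] (P : Law Ω)

lemma prE_mono' {E E' : Ω → Prop} (h : ∀ ω, 0 < P.w ω → E ω → E' ω) : prE P E ≤ prE P E' := by
  classical
  unfold prE
  rw [Finset.sum_filter, Finset.sum_filter]
  refine Finset.sum_le_sum fun ω _ => ?_
  by_cases hE : E ω
  · rw [if_pos hE]
    by_cases hE' : E' ω
    · rw [if_pos hE']
    · rw [if_neg hE']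
      rcases (P.nn ω).eq_or_lt with h0 | h0
      · exact h0.symm.le
      · exact absurd (h ω h0 hE) hE'
  · rw [if_neg hE]
    split_ifs
    · exact P.nn ω
    · exact le_rfl

lemma prE_or' (E E' : Ω → Prop) : prE P (fun ω => E ω ∨ E' ω) ≤ prE P E + prE P E' := by
  classical
  unfold prE
  rw [Finset.sum_filter, Finset.sum_filter, Finset.sum_filter, ← Finset.sum_add_distrib]
  refine Finset.sum_le_sum fun ω _ => ?_
  have h0 := P.nn ω
  by_cases hE : E ω <;> by_cases hE' : E' ω <;> (simp [hE, hE']; try linarith)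

lemma prE_eq_ex (E : Ω → Prop) [DecidablePred E] :
    P.ex (fun ω => if E ω then 1 else 0) = prE P E := by
  classical
  unfold prE Law.ex
  rw [Finset.sum_filter]
  refine Finset.sum_congr rfl fun ω _ => ?_
  by_cases hE : E ω <;> simp [hE]

end prE

lemma fl1_diff {n : ℕ} {x y : ℝ} (h : fl1 n x = fl1 n y) : |x - y| ≤ q2 n := by
  have h1 := rd_le n x
  have h2 := lt_rd n x
  have h3 := rd_le n y
  have h4 := lt_rd n y
  have h5 : rd n x = rd n y := by unfold rd; rw [h]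
  rw [abs_le]
  constructor <;> linarith

variable {Ω : Type} {C : Pth Ω}

/-- coordinates in the frame of the step `i` of two lines with the same final label -/
lemma cell_diff {h q b i : ℕ} (ha : C.a i + b ≤ h) (hr : C.r i + b ≤ q) {ω ω' : Ω}
    (hb : Mic.box C h q ω' = Mic.box C h q ω) (hy : fl1 b (C.y1 ω') = fl1 b (C.y1 ω)) :
    C.T i ω' = C.T i ω ∧
    |C.yN i ω' - C.yN i ω| ≤ 2 * q2 (b + C.r i) ∧
    |C.X1 i ω' - C.X1 i ω| ≤ 2 * q2 (C.a i + b) ∧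
    |C.F i ω' - C.F i ω| ≤ 4 * q2 (C.a i + C.r i + b) := by
  unfold Mic.box at hb
  simp only [Prod.mk.injEq] at hb
  obtain ⟨b1, b2, -, b4, b5, b6⟩ := hb
  have hT : C.T i ω' = C.T i ω := by
    unfold Pth.T
    exact Prod.ext (fl1_fl1 (by omega) b1) (fl1_fl1 (by omega) b2)
  have et : rd h (C.t ω') = rd h (C.t ω) := by unfold rd; rw [b1]
  have ev : rd q (C.v ω') = rd q (C.v ω) := by unfold rd; rw [b2]
  have eta := Pth.T_ta hT
  have evr := Pth.T_vr hT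
  have dy := fl1_diff hy
  have d4 := fl1_diff b4
  have d5 := fl1_diff b5
  have d6 := fl1_diff b6
  rw [ev] at d4 d6
  rw [et] at d5 d6
  have ds : |C.ta i ω - rd h (C.t ω)| ≤ q2 (C.a i) := by
    rw [abs_sub_comm]
    exact rd_sub (by omega) _
  have du : |C.vr i ω - rd q (C.v ω)| ≤ q2 (C.r i) := by
    rw [abs_sub_comm]
    exact rd_sub (by omega) _
  set τ := rd h (C.t ω) with hτ
  set φ := rd q (C.v ω) with hφ
  set s := C.ta i ω - τ with hs
  set u := C.vr i ω - φ with hu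
  set dN := C.y2 ω' - φ * C.y1 ω' - (C.y2 ω - φ * C.y1 ω) with hdN
  set dX := C.x1 ω' + τ * C.y1 ω' - (C.x1 ω + τ * C.y1 ω) with hdX
  set dF := C.x2 ω' + τ * C.y2 ω' - φ * (C.x1 ω' + τ * C.y1 ω') -
    (C.x2 ω + τ * C.y2 ω - φ * (C.x1 ω + τ * C.y1 ω)) with hdF
  have p1 : |u * (C.y1 ω' - C.y1 ω)| ≤ q2 (b + C.r i) := by
    rw [abs_mul]
    calc |u| * |C.y1 ω' - C.y1 ω| ≤ q2 (C.r i) * q2 b :=
          mul_le_mul du dy (abs_nonneg _) (q2_pos _).le
      _ = q2 (b + C.r i) := by rw [← q2_add, Nat.add_comm]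
  have p2 : |s * (C.y1 ω' - C.y1 ω)| ≤ q2 (C.a i + b) := by
    rw [abs_mul]
    calc |s| * |C.y1 ω' - C.y1 ω| ≤ q2 (C.a i) * q2 b :=
          mul_le_mul ds dy (abs_nonneg _) (q2_pos _).le
      _ = _ := (q2_add _ _).symm
  have l4 : q2 q ≤ q2 (b + C.r i) := q2_le (by omega)
  have l5 : q2 h ≤ q2 (C.a i + b) := q2_le (by omega)
  have l6 : q2 (h + q) ≤ q2 (C.a i + C.r i + b) := q2_le (by omega)
  have hN : |C.yN i ω' - C.yN i ω| ≤ 2 * q2 (b + C.r i) := by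
    have e : C.yN i ω' - C.yN i ω = dN - u * (C.y1 ω' - C.y1 ω) := by
      unfold Pth.yN
      rw [evr, hdN, hu]
      ring
    rw [e]
    exact (abs_sub _ _).trans (by linarith)
  have hX : |C.X1 i ω' - C.X1 i ω| ≤ 2 * q2 (C.a i + b) := by
    have e : C.X1 i ω' - C.X1 i ω = dX + s * (C.y1 ω' - C.y1 ω) := by
      unfold Pth.X1
      rw [eta, hdX, hs]
      ring
    rw [e]
    exact (abs_add_le _ _).trans (by linarith)
  refine ⟨hT, hN, hX, ?_⟩
  have e : C.F i ω' - C.F i ω = dF + s * dN - u * (C.X1 i ω' - C.X1 i ω) := by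
    unfold Pth.F Pth.X1
    rw [eta, evr, hdF, hdN, hs, hu]
    ring
  rw [e]
  have p3 : |s * dN| ≤ q2 (C.a i + C.r i + b) := by
    rw [abs_mul]
    calc |s| * |dN| ≤ q2 (C.a i) * q2 q := mul_le_mul ds d4 (abs_nonneg _) (q2_pos _).le
      _ = q2 (C.a i + q) := (q2_add _ _).symm
      _ ≤ _ := q2_le (by omega)
  have p4 : |u * (C.X1 i ω' - C.X1 i ω)| ≤ 2 * q2 (C.a i + C.r i + b) := by
    rw [abs_mul]
    calc |u| * |C.X1 i ω' - C.X1 i ω| ≤ q2 (C.r i) * (2 * q2 (C.a i + b)) :=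
          mul_le_mul du hX (abs_nonneg _) (q2_pos _).le
      _ = 2 * q2 (C.a i + C.r i + b) := by
          rw [mul_left_comm, ← q2_add]
          congr 2
          omega
  have a1 := abs_sub (dF + s * dN) (u * (C.X1 i ω' - C.X1 i ω))
  have a2 := abs_add_le dF (s * dN)
  linarith

/-- outside `Bad i b` the cell `base i b` is a function of the final label and of `b` digits of `y1` -/
lemma base_eq_of_box {h q b i : ℕ} (ha : C.a i + b ≤ h) (hr : C.r i + b ≤ q) {ω ω' : Ω}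
    (hb : Mic.box C h q ω' = Mic.box C h q ω) (hy : fl1 b (C.y1 ω') = fl1 b (C.y1 ω))
    (hbad : ¬ C.Bad i b ω) : C.base i b ω' = C.base i b ω := by
  obtain ⟨hT, hN, hX, hF⟩ := cell_diff ha hr hb hy
  unfold Pth.Bad at hbad
  push Not at hbad
  obtain ⟨g1, g2, g3⟩ := hbad
  unfold Pth.base
  refine Prod.ext hT (Prod.ext hy (Prod.ext ?_ (Prod.ext ?_ ?_)))
  · exact Nb.eq g1 hN (by rw [sub_self, abs_zero]; linarith [q2_pos (b + C.r i)])
  · exact Nb.eq g2 hX (by rw [sub_self, abs_zero]; linarith [q2_pos (C.a i + b)])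
  · exact Nb.eq g3 hF (by rw [sub_self, abs_zero]; linarith [q2_pos (C.a i + C.r i + b)])

variable [Fintype Ω] (P : Law Ω)

/-- the ambiguity is at most the probability of `Bad` -/
lemma amb_le (C : Pth Ω) {h q b j : ℕ} (ha : C.a j + b ≤ h) (hr : C.r j + b ≤ q) :
    amb P C h q b j ≤ prE P (fun ω => ∃ i ≤ j, C.Bad i b ω) := by
  classical
  have e : amb P C h q b j = prE P (fun ω => ∃ ω', 0 < P.w ω' ∧ Mic.box C h q ω' = Mic.box C h q ω ∧
      fl1 b (C.y1 ω') = fl1 b (C.y1 ω) ∧ C.J j b ω' ≠ C.J j b ω) := by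
    unfold amb
    exact prE_eq_ex P _
  rw [e]
  refine prE_mono' P fun ω _ hω => ?_
  obtain ⟨ω', -, h1, h2, h3⟩ := hω
  by_contra hcon
  push Not at hcon
  refine h3 (Pth.J_iff.2 fun i hi => ?_)
  have hai := C.ha hi
  have hri := C.hr hi
  exact base_eq_of_box (by omega) (by omega) h1 h2 (hcon i hi)

lemma pow_q2 {n m k : ℕ} (h : n + k = m) : (2 : ℝ) ^ n * q2 m = q2 k := by
  rw [← h, q2_add, ← mul_assoc, q2_mul_pow, one_mul]

/-- **a generic translation of `(x1, x2, y2)`** -/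
theorem gen_bad (C : Pth Ω) (n : ℕ) (B : Finset ℕ) (hB : ∀ b ∈ B, 2 * C.κ ≤ b) :
    ∃ o1 o2 o3 : ℝ, 0 ≤ o1 ∧ o1 ≤ 1 ∧ 0 ≤ o2 ∧ o2 ≤ 1 ∧ 0 ≤ o3 ∧ o3 ≤ 1 ∧
      prE P (fun ω => ∃ i ≤ n, ∃ b ∈ B, (trn C o1 o2 o3).Bad i b ω) ≤
        16 * B.card * (n + 1) / 2 ^ C.κ := by
  classical
  set S : Finset (ℕ × ℕ) := range (n + 1) ×ˢ B with hS
  have hSb : ∀ x ∈ S, 2 * C.κ ≤ x.2 := fun x hx => hB _ (mem_product.1 hx).2
  have hq : q2 C.κ = 1 / 2 ^ C.κ := by unfold q2; rw [one_div, inv_pow, one_div]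
  have hcard : (S.card : ℝ) = (n + 1) * B.card := by
    rw [hS, card_product, card_range]
    push_cast
    ring
  obtain ⟨o3, h30, h31, h3⟩ := gen_prob P S (fun x _ => x.2 + C.r x.1 - C.κ)
    (fun x ω => C.yN x.1 ω - 2 * q2 (x.2 + C.r x.1)) (fun x _ => 4 * q2 (x.2 + C.r x.1))
    (fun x _ _ => by have := q2_pos (x.2 + C.r x.1); positivity)
  obtain ⟨o1, h10, h11, h1⟩ := gen_prob P S (fun x _ => C.a x.1 + x.2 - C.κ)
    (fun x ω => C.X1 x.1 ω - 2 * q2 (C.a x.1 + x.2)) (fun x _ => 4 * q2 (C.a x.1 + x.2))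
    (fun x _ _ => by have := q2_pos (C.a x.1 + x.2); positivity)
  obtain ⟨o2, h20, h21, h2⟩ := gen_prob P S (fun x _ => C.a x.1 + C.r x.1 + x.2 - 2 * C.κ)
    (fun x ω => (trn C o1 0 o3).F x.1 ω - 4 * q2 (C.a x.1 + C.r x.1 + x.2))
    (fun x _ => 8 * q2 (C.a x.1 + C.r x.1 + x.2))
    (fun x _ _ => by have := q2_pos (C.a x.1 + C.r x.1 + x.2); positivity)
  refine ⟨o1, o2, o3, h10.le, h11, h20.le, h21, h30.le, h31, ?_⟩
  have s3 : ∑ x ∈ S, P.ex (fun _ : Ω => (2 : ℝ) ^ (x.2 + C.r x.1 - C.κ) *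
      (4 * q2 (x.2 + C.r x.1))) = S.card * (4 * q2 C.κ) := by
    rw [← nsmul_eq_mul, ← Finset.sum_const]
    refine Finset.sum_congr rfl fun x hx => ?_
    have := hSb x hx
    rw [P.ex_const, mul_left_comm, pow_q2 (k := C.κ) (by omega)]
  have s1 : ∑ x ∈ S, P.ex (fun _ : Ω => (2 : ℝ) ^ (C.a x.1 + x.2 - C.κ) *
      (4 * q2 (C.a x.1 + x.2))) = S.card * (4 * q2 C.κ) := by
    rw [← nsmul_eq_mul, ← Finset.sum_const]
    refine Finset.sum_congr rfl fun x hx => ?_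
    have := hSb x hx
    rw [P.ex_const, mul_left_comm, pow_q2 (k := C.κ) (by omega)]
  have s2 : ∑ x ∈ S, P.ex (fun _ : Ω => (2 : ℝ) ^ (C.a x.1 + C.r x.1 + x.2 - 2 * C.κ) *
      (8 * q2 (C.a x.1 + C.r x.1 + x.2))) ≤ S.card * (8 * q2 C.κ) := by
    rw [← nsmul_eq_mul, ← Finset.sum_const]
    refine Finset.sum_le_sum fun x hx => ?_
    have := hSb x hx
    rw [P.ex_const, mul_left_comm, pow_q2 (k := 2 * C.κ) (by omega)]
    have := q2_le (show C.κ ≤ 2 * C.κ by omega)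
    linarith
  rw [s3] at h3
  rw [s1] at h1
  have h2' := h2.trans s2
  have hmono : prE P (fun ω => ∃ i ≤ n, ∃ b ∈ B, (trn C o1 o2 o3).Bad i b ω) ≤
      prE P (fun ω =>
        (∃ x ∈ S, ∃ y : ℝ, C.yN x.1 ω - 2 * q2 (x.2 + C.r x.1) + o3 ≤ y ∧
          y ≤ C.yN x.1 ω - 2 * q2 (x.2 + C.r x.1) + o3 + 4 * q2 (x.2 + C.r x.1) ∧
          fl1 (x.2 + C.r x.1 - C.κ) y ≠
            fl1 (x.2 + C.r x.1 - C.κ) (C.yN x.1 ω - 2 * q2 (x.2 + C.r x.1) + o3)) ∨
        (∃ x ∈ S, ∃ y : ℝ, C.X1 x.1 ω - 2 * q2 (C.a x.1 + x.2) + o1 ≤ y ∧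
          y ≤ C.X1 x.1 ω - 2 * q2 (C.a x.1 + x.2) + o1 + 4 * q2 (C.a x.1 + x.2) ∧
          fl1 (C.a x.1 + x.2 - C.κ) y ≠
            fl1 (C.a x.1 + x.2 - C.κ) (C.X1 x.1 ω - 2 * q2 (C.a x.1 + x.2) + o1)) ∨
        (∃ x ∈ S, ∃ y : ℝ, (trn C o1 0 o3).F x.1 ω - 4 * q2 (C.a x.1 + C.r x.1 + x.2) + o2 ≤ y ∧
          y ≤ (trn C o1 0 o3).F x.1 ω - 4 * q2 (C.a x.1 + C.r x.1 + x.2) + o2 +
            8 * q2 (C.a x.1 + C.r x.1 + x.2) ∧
          fl1 (C.a x.1 + C.r x.1 + x.2 - 2 * C.κ) y ≠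
            fl1 (C.a x.1 + C.r x.1 + x.2 - 2 * C.κ)
              ((trn C o1 0 o3).F x.1 ω - 4 * q2 (C.a x.1 + C.r x.1 + x.2) + o2))) := by
    refine prE_mono' P fun ω _ hω => ?_
    obtain ⟨i, hi, b, hb, hbad⟩ := hω
    have hx : (i, b) ∈ S := mem_product.2 ⟨mem_range.2 (by omega), hb⟩
    have eN : (trn C o1 o2 o3).yN i ω = C.yN i ω + o3 := by
      unfold Pth.yN trn Pth.vr
      simp only
      ring
    have eX : (trn C o1 o2 o3).X1 i ω = C.X1 i ω + o1 := by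
      unfold Pth.X1 trn Pth.ta
      simp only
      ring
    have eF : (trn C o1 o2 o3).F i ω = (trn C o1 0 o3).F i ω + o2 := by
      unfold Pth.F Pth.X1 trn Pth.ta Pth.vr
      simp only
      ring
    rcases hbad with hh | hh | hh
    · left
      refine ⟨(i, b), hx, ?_⟩
      obtain ⟨y, y1, y2, y3⟩ := hh
      rw [eN] at y1 y2 y3
      have e : C.yN i ω - 2 * q2 (b + C.r i) + o3 = C.yN i ω + o3 - 2 * q2 (b + C.r i) := by ring
      refine ⟨y, ?_, ?_, ?_⟩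
      · show C.yN i ω - 2 * q2 (b + C.r i) + o3 ≤ y
        rw [e]; exact y1
      · show y ≤ C.yN i ω - 2 * q2 (b + C.r i) + o3 + 4 * q2 (b + C.r i)
        have y2' : y ≤ C.yN i ω + o3 + 2 * q2 (b + C.r i) := y2
        linarith
      · show fl1 (b + C.r i - C.κ) y ≠ fl1 (b + C.r i - C.κ) (C.yN i ω - 2 * q2 (b + C.r i) + o3)
        rw [e]; exact y3
    · right; left
      refine ⟨(i, b), hx, ?_⟩
      obtain ⟨y, y1, y2, y3⟩ := hh
      rw [eX] at y1 y2 y3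
      have e : C.X1 i ω - 2 * q2 (C.a i + b) + o1 = C.X1 i ω + o1 - 2 * q2 (C.a i + b) := by ring
      refine ⟨y, ?_, ?_, ?_⟩
      · show C.X1 i ω - 2 * q2 (C.a i + b) + o1 ≤ y
        rw [e]; exact y1
      · show y ≤ C.X1 i ω - 2 * q2 (C.a i + b) + o1 + 4 * q2 (C.a i + b)
        have y2' : y ≤ C.X1 i ω + o1 + 2 * q2 (C.a i + b) := y2
        linarith
      · show fl1 (C.a i + b - C.κ) y ≠ fl1 (C.a i + b - C.κ) (C.X1 i ω - 2 * q2 (C.a i + b) + o1)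
        rw [e]; exact y3
    · right; right
      refine ⟨(i, b), hx, ?_⟩
      obtain ⟨y, y1, y2, y3⟩ := hh
      rw [eF] at y1 y2 y3
      have e : (trn C o1 0 o3).F i ω - 4 * q2 (C.a i + C.r i + b) + o2 =
        (trn C o1 0 o3).F i ω + o2 - 4 * q2 (C.a i + C.r i + b) := by ring
      refine ⟨y, ?_, ?_, ?_⟩
      · show (trn C o1 0 o3).F i ω - 4 * q2 (C.a i + C.r i + b) + o2 ≤ y
        rw [e]; exact y1
      · show y ≤ (trn C o1 0 o3).F i ω - 4 * q2 (C.a i + C.r i + b) + o2 +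
          8 * q2 (C.a i + C.r i + b)
        have y2' : y ≤ (trn C o1 0 o3).F i ω + o2 + 4 * q2 (C.a i + C.r i + b) := y2
        linarith
      · show fl1 (C.a i + C.r i + b - 2 * C.κ) y ≠ fl1 (C.a i + C.r i + b - 2 * C.κ)
          ((trn C o1 0 o3).F i ω - 4 * q2 (C.a i + C.r i + b) + o2)
        rw [e]; exact y3
  refine hmono.trans ((prE_or' P _ _).trans ?_)
  refine (add_le_add h3 ((prE_or' P _ _).trans (add_le_add h1 h2'))).trans (le_of_eq ?_)
  rw [hcard, hq]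
  ring

/-- **PTrn** -/
theorem pTrn : PTrn := by
  refine ⟨16, ?_⟩
  intro Ω _ P C n h q B hB
  obtain ⟨o1, o2, o3, h1, h2, h3, h4, h5, h6, h7⟩ := gen_bad P C n B fun b hb => (hB b hb).2.2
  refine ⟨o1, o2, o3, h1, h2, h3, h4, h5, h6, fun b hb j hj => ?_⟩
  have haj : C.a j ≤ C.a n := C.ha hj
  have hrj : C.r j ≤ C.r n := C.hr hj
  obtain ⟨g1, g2, -⟩ := hB b hb
  refine (amb_le P (trn C o1 o2 o3) (h := h) (q := q) (b := b) (j := j)
    (show C.a j + b ≤ h by omega) (show C.r j + b ≤ q by omega)).trans ?_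
  refine (prE_mono' P fun ω _ hω => ?_).trans (h7.trans (le_of_eq (by push_cast; ring)))
  obtain ⟨i, hi, hbad⟩ := hω
  exact ⟨i, hi.trans hj, b, hb, hbad⟩

end Vale.Agent.P127.U.H715
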