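import Vale.Agent.P127.TV.MStep
import Vale.Agent.P127.Stk.LibDom

/-!
# P127 / U / H715 : localised M-step

`key` : the M-step of `TV/MStep` at one value `(d, θ)` of the past and of the time; `err_mean` : the
mean of the errors; `mstepE` : lower bound for the entropy of the fine digits UNDER THE LAW
CONDITIONED ON AN EVENT `E` (not measurable with respect to the past), as soon as one good choice
of the copies exists with probability at least `c` given the past.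
-/

set_option autoImplicit false

namespace Vale.Agent.P127.U.H715

open Finset Vale.Agent.P127 Vale.Agent.P127.Law Vale.Agent.P127.Stk Vale.Agent.P127.U.Pin
  Vale.Agent.P127.TV

variable {Ω : Type} [Fintype Ω] {ι : Type*} {S U V F G : Type*}

/-- average of `χ` over the four copies given the past -/
noncomputable def avx (P : Law Ω) (D : Ω → U) (Θ : Ω → V) (W : Ω → S) (e : U → S → ℝ)
    (χ : U → V → V → V → ℝ → ℝ → ℝ) (d : U) (θ : V) : ℝ :=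
  (P.cond D d).ex (fun ω₂ => (P.cond D d).ex (fun ω₃ => (P.cond D d).ex (fun ω₄ =>
    (P.cond D d).ex (fun ω₅ => χ d θ (Θ ω₂) (Θ ω₃) (e d (W ω₄)) (e d (W ω₅))))))

/-- the error at one value of the past and of the time -/
noncomputable def err (P : Law Ω) (D : Ω → U) (Θ : Ω → V) (W : Ω → S) (e : U → S → ℝ)
    (A : U → V → S → ι → ℝ) (d : U) (θ : V) : ℝ :=
  2 * il (P.cond D d) (fun ω' => e d (W ω')) (fun ω' => A d θ (W ω')) +
    2 * (P.cond D d).ex (fun ω₂ => il (P.cond D d) (fun ω' => e d (W ω'))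
      (fun ω' => A d (Θ ω₂) (W ω'))) +
    2 * dl (P.cond (fun ω => (D ω, Θ ω)) (d, θ)) W (P.cond D d) W

/-- the mean of the errors -/
theorem err_mean (P : Law Ω) (D : Ω → U) (Θ : Ω → V) (W : Ω → S) (e : U → S → ℝ)
    (A : U → V → S → ι → ℝ) :
    P.ex (fun ω => err P D Θ W e A (D ω) (Θ ω)) ≤
      16 * Real.sqrt (mi P (fun ω => e (D ω) (W ω)) (fun ω => A (D ω) (Θ ω) (W ω))
        (fun ω => (D ω, Θ ω))) + 56 * Real.sqrt (mi P Θ W D) := by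
  have hJ1 := one_theta P D Θ W e A
  have hJ2 : P.ex (fun ω => (P.cond D (D ω)).ex (fun ω₂ =>
      il (P.cond D (D ω)) (fun ω' => e (D ω) (W ω')) (fun ω' => A (D ω) (Θ ω₂) (W ω')))) =
      P.ex (fun ω => il (P.cond D (D ω)) (fun ω' => e (D ω) (W ω'))
        (fun ω' => A (D ω) (Θ ω) (W ω'))) := by
    rw [← ex_cond P D (fun ω => il (P.cond D (D ω)) (fun ω' => e (D ω) (W ω'))
        (fun ω' => A (D ω) (Θ ω) (W ω')))]
    refine P.ex_congr fun ω hω => Law.ex_congr _ fun ω₂ h₂ => ?_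
    have : D ω₂ = D ω := (cond_supp P D (P.pr_pos D hω) h₂).1
    rw [this]
  have hK := pin_dl P Θ W D
  unfold err
  simp only [P.ex_add, P.ex_const_mul]
  rw [hJ2]
  linarith

/-- the M-step at one value of the past and of the time -/
theorem key (P : Law Ω) (D : Ω → U) (Θ : Ω → V) (W : Ω → S) (e : U → S → ℝ)
    (A : U → V → S → ι → ℝ) (g h : U → V → V → ι → ℝ) (c : ι → ℝ)
    (hA : ∀ d θ₁ θ₂ w i,
      |A d θ₂ w i - A d θ₁ w i - (e d w * g d θ₁ θ₂ i + h d θ₁ θ₂ i)| ≤ c i)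
    (χ : U → V → V → V → ℝ → ℝ → ℝ) (hχ0 : ∀ d θ θ₂ θ₃ x x', 0 ≤ χ d θ θ₂ θ₃ x x')
    (hχ1 : ∀ d θ θ₂ θ₃ x x', χ d θ θ₂ θ₃ x x' ≤ 1)
    (fine : U → V → (ι → ℝ) → F) (coarse : U → V → (ι → ℝ) → G) (Φ N : ℝ) (hN : 0 ≤ N)
    (hsat : ∀ d θ θ₂ θ₃ x x', 0 < χ d θ θ₂ θ₃ x x' → ∀ (Q : Law Ω) (X : Ω → ι → ℝ) (ε₁ ε₂ : ℝ),
      Tr Q X (fun i => (x - x') * g d θ θ₂ i) (fun i => 2 * c i) ε₁ →
      Tr Q X (fun i => (x - x') * g d θ θ₃ i) (fun i => 2 * c i) ε₂ →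
      Φ - N * (ε₁ + ε₂) ≤ hc Q (fun ω => fine d θ (X ω)) (fun ω => coarse d θ (X ω)))
    {ω : Ω} (hω : 0 < P.w ω) :
    avx P D Θ W e χ (D ω) (Θ ω) * Φ - N * err P D Θ W e A (D ω) (Θ ω) ≤
      avx P D Θ W e χ (D ω) (Θ ω) * hc (P.cond (fun ω => (D ω, Θ ω)) (D ω, Θ ω))
        (fun ω => fine (D ω) (Θ ω) (A (D ω) (Θ ω) (W ω)))
        (fun ω => coarse (D ω) (Θ ω) (A (D ω) (Θ ω) (W ω))) := by
  classical
  set R := P.cond D (D ω) with hR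
  set Q := P.cond (fun ω => (D ω, Θ ω)) (D ω, Θ ω) with hQ
  let J : Ω → ℝ := fun ω₂ => il R (fun ω' => e (D ω) (W ω')) (fun ω' => A (D ω) (Θ ω₂) (W ω'))
  set K : ℝ := dl Q W R W with hKdef
  have hQs : ∀ ω', 0 < Q.w ω' → D ω' = D ω ∧ Θ ω' = Θ ω := fun ω' h' =>
    Prod.mk.inj (cond_supp P (fun ω => (D ω, Θ ω)) (P.pr_pos (fun ω => (D ω, Θ ω)) hω) h').1
  have hhc : hc Q (fun ω => fine (D ω) (Θ ω) (A (D ω) (Θ ω) (W ω)))
      (fun ω => coarse (D ω) (Θ ω) (A (D ω) (Θ ω) (W ω))) =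
      hc Q (fun ω' => fine (D ω) (Θ ω) (A (D ω) (Θ ω) (W ω')))
      (fun ω' => coarse (D ω) (Θ ω) (A (D ω) (Θ ω) (W ω'))) := by
    refine hc_congr_supp (fun ω' h' => ?_) fun ω' h' => ?_
    · rw [(hQs ω' h').1, (hQs ω' h').2]
    · rw [(hQs ω' h').1, (hQs ω' h').2]
  rw [hhc]
  set H := hc Q (fun ω' => fine (D ω) (Θ ω) (A (D ω) (Θ ω) (W ω')))
      (fun ω' => coarse (D ω) (Θ ω) (A (D ω) (Θ ω) (W ω'))) with hH
  -- the error of one translation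
  let er : Ω → Ω → Ω → ℝ := fun ω₂ ω₄ ω₅ =>
    (dl (R.cond (fun ω' => e (D ω) (W ω')) (e (D ω) (W ω₄)))
        (fun ω' => A (D ω) (Θ ω) (W ω')) R (fun ω' => A (D ω) (Θ ω) (W ω')) +
      dl (R.cond (fun ω' => e (D ω) (W ω')) (e (D ω) (W ω₄)))
        (fun ω' => A (D ω) (Θ ω₂) (W ω'))
        (R.cond (fun ω' => e (D ω) (W ω')) (e (D ω) (W ω₅)))
        (fun ω' => A (D ω) (Θ ω₂) (W ω')) +
      dl (R.cond (fun ω' => e (D ω) (W ω')) (e (D ω) (W ω₅)))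
        (fun ω' => A (D ω) (Θ ω) (W ω')) R (fun ω' => A (D ω) (Θ ω) (W ω'))) / 2
  have her0 : ∀ ω₂ ω₄ ω₅, 0 ≤ er ω₂ ω₄ ω₅ := fun ω₂ ω₄ ω₅ =>
    div_nonneg (add_nonneg (add_nonneg (dl_nonneg _ _ _ _) (dl_nonneg _ _ _ _))
      (dl_nonneg _ _ _ _)) (by norm_num)
  have hK0 : 0 ≤ K := dl_nonneg _ _ _ _
  have htr : ∀ ω₂ ω₄ ω₅, 0 < R.w ω₄ → 0 < R.w ω₅ →
      Tr Q (fun ω' => A (D ω) (Θ ω) (W ω'))
        (fun i => (e (D ω) (W ω₄) - e (D ω) (W ω₅)) * g (D ω) (Θ ω) (Θ ω₂) i)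
        (fun i => 2 * c i) (er ω₂ ω₄ ω₅ + K) := by
    intro ω₂ ω₄ ω₅ h4 h5
    have h6 := Tr.two_ind R (fun ω' => e (D ω) (W ω')) (fun ω' => A (D ω) (Θ ω) (W ω'))
      (fun ω' => A (D ω) (Θ ω₂) (W ω'))
      (fun x i => x * g (D ω) (Θ ω) (Θ ω₂) i + h (D ω) (Θ ω) (Θ ω₂) i) c
      (fun ω' _ i => hA _ _ _ _ i) (R.pr_pos (fun ω' => e (D ω) (W ω')) h4)
      (R.pr_pos (fun ω' => e (D ω) (W ω')) h5)
    have h7 := Tr.change (P := R) (Q := Q) W (fun w => A (D ω) (Θ ω) w) h6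
    exact h7.congr fun i => by ring
  have hpt : ∀ ω₂ ω₃ ω₄ ω₅, 0 < R.w ω₄ → 0 < R.w ω₅ →
      χ (D ω) (Θ ω) (Θ ω₂) (Θ ω₃) (e (D ω) (W ω₄)) (e (D ω) (W ω₅)) * Φ -
        N * ((er ω₂ ω₄ ω₅ + er ω₃ ω₄ ω₅) + 2 * K) ≤
      χ (D ω) (Θ ω) (Θ ω₂) (Θ ω₃) (e (D ω) (W ω₄)) (e (D ω) (W ω₅)) * H := by
    intro ω₂ ω₃ ω₄ ω₅ h4 h5
    set x := χ (D ω) (Θ ω) (Θ ω₂) (Θ ω₃) (e (D ω) (W ω₄)) (e (D ω) (W ω₅)) with hx
    have hx0 : 0 ≤ x := hχ0 _ _ _ _ _ _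
    have hx1 : x ≤ 1 := hχ1 _ _ _ _ _ _
    have hE0 : 0 ≤ N * ((er ω₂ ω₄ ω₅ + er ω₃ ω₄ ω₅) + 2 * K) :=
      mul_nonneg hN (by linarith [her0 ω₂ ω₄ ω₅, her0 ω₃ ω₄ ω₅])
    rcases hx0.eq_or_lt with h0 | h0
    · rw [← h0]
      linarith
    · have h8 := hsat _ _ _ _ _ _ h0 Q (fun ω' => A (D ω) (Θ ω) (W ω')) _ _
        (htr ω₂ ω₄ ω₅ h4 h5) (htr ω₃ ω₄ ω₅ h4 h5)
      have h9 := mul_le_mul_of_nonneg_left h8 hx0
      have h10 : x * (N * ((er ω₂ ω₄ ω₅ + er ω₃ ω₄ ω₅) + 2 * K)) ≤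
          N * ((er ω₂ ω₄ ω₅ + er ω₃ ω₄ ω₅) + 2 * K) := mul_le_of_le_one_left hE0 hx1
      have h11 : x * (Φ - N * (er ω₂ ω₄ ω₅ + K + (er ω₃ ω₄ ω₅ + K))) =
          x * Φ - x * (N * ((er ω₂ ω₄ ω₅ + er ω₃ ω₄ ω₅) + 2 * K)) := by ring
      rw [h11] at h9
      linarith
  -- average over the four copies
  let X4 : Ω → Ω → Ω → Ω → ℝ := fun ω₂ ω₃ ω₄ ω₅ =>
    χ (D ω) (Θ ω) (Θ ω₂) (Θ ω₃) (e (D ω) (W ω₄)) (e (D ω) (W ω₅))
  let av : (Ω → Ω → Ω → Ω → ℝ) → ℝ := fun f =>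
    R.ex (fun ω₂ => R.ex (fun ω₃ => R.ex (fun ω₄ => R.ex (fun ω₅ => f ω₂ ω₃ ω₄ ω₅))))
  have hav : avx P D Θ W e χ (D ω) (Θ ω) = av X4 := rfl
  have av_mono : ∀ f f' : Ω → Ω → Ω → Ω → ℝ, (∀ ω₂ ω₃ ω₄ ω₅, 0 < R.w ω₄ → 0 < R.w ω₅ →
      f ω₂ ω₃ ω₄ ω₅ ≤ f' ω₂ ω₃ ω₄ ω₅) → av f ≤ av f' := fun f f' hff =>
    R.ex_mono fun ω₂ _ => R.ex_mono fun ω₃ _ => R.ex_mono fun ω₄ h4 => R.ex_mono fun ω₅ h5 =>
      hff ω₂ ω₃ ω₄ ω₅ h4 h5
  have e1 : av (fun ω₂ ω₃ ω₄ ω₅ => X4 ω₂ ω₃ ω₄ ω₅ * Φ -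
      N * ((er ω₂ ω₄ ω₅ + er ω₃ ω₄ ω₅) + 2 * K)) ≤
      av (fun ω₂ ω₃ ω₄ ω₅ => X4 ω₂ ω₃ ω₄ ω₅ * H) := av_mono _ _ hpt
  have e2 : av (fun ω₂ ω₃ ω₄ ω₅ => X4 ω₂ ω₃ ω₄ ω₅ * H) = av X4 * H := by
    simp only [av]
    simp only [mul_comm _ H, R.ex_const_mul]
  have e3 : av (fun ω₂ ω₃ ω₄ ω₅ => X4 ω₂ ω₃ ω₄ ω₅ * Φ -
      N * ((er ω₂ ω₄ ω₅ + er ω₃ ω₄ ω₅) + 2 * K)) =
      av X4 * Φ - N * ((R.ex (fun ω₂ => R.ex (fun ω₄ => R.ex (fun ω₅ => er ω₂ ω₄ ω₅))) +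
        R.ex (fun ω₃ => R.ex (fun ω₄ => R.ex (fun ω₅ => er ω₃ ω₄ ω₅)))) + 2 * K) := by
    simp only [av]
    simp only [R.ex_sub, R.ex_const_mul, R.ex_add, R.ex_const]
    congr 1
    simp only [mul_comm _ Φ, R.ex_const_mul]
  have e4 : R.ex (fun ω₂ => R.ex (fun ω₄ => R.ex (fun ω₅ => er ω₂ ω₄ ω₅))) ≤
      J ω + R.ex (fun ω₂ => J ω₂) := by
    have : R.ex (fun ω₂ => R.ex (fun ω₄ => R.ex (fun ω₅ => er ω₂ ω₄ ω₅))) ≤
        R.ex (fun ω₂ => J ω + J ω₂) := by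
      refine R.ex_mono fun ω₂ _ => ?_
      exact two_ind_err R (fun ω' => e (D ω) (W ω')) (fun ω' => A (D ω) (Θ ω) (W ω'))
        (fun ω' => A (D ω) (Θ ω₂) (W ω'))
    rwa [R.ex_add, R.ex_const] at this
  rw [e3, e2] at e1
  have e5 : N * ((R.ex (fun ω₂ => R.ex (fun ω₄ => R.ex (fun ω₅ => er ω₂ ω₄ ω₅))) +
        R.ex (fun ω₃ => R.ex (fun ω₄ => R.ex (fun ω₅ => er ω₃ ω₄ ω₅)))) + 2 * K) ≤
      N * ((2 * J ω + 2 * R.ex (fun ω₂ => J ω₂)) + 2 * K) :=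
    mul_le_mul_of_nonneg_left (by linarith) hN
  have e6 : err P D Θ W e A (D ω) (Θ ω) = (2 * J ω + 2 * R.ex (fun ω₂ => J ω₂)) + 2 * K := rfl
  rw [hav, e6]
  linarith

/-- a law conditioned on an event is dominated on the fibres -/
theorem dom_fib (P : Law Ω) (E : Ω → Prop) (Z : Ω → U) (hE : 0 < prE P E) {z : U}
    (hz : 0 < (on P E).pr Z z) :
    Dom ((on P E).cond Z z) id (P.cond Z z) (P.pr Z z / (prE P E * (on P E).pr Z z)) := by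
  classical
  have hz' : 0 < P.pr Z z := by
    have h1 : (on P E).pr Z z ≤ P.pr Z z / prE P E := by
      unfold Law.pr
      rw [Finset.sum_div]
      refine Finset.sum_le_sum fun ω _ => ?_
      rw [on_w hE]
      split_ifs
      · exact le_rfl
      · exact div_nonneg (P.nn ω) hE.le
    have h2 : 0 < P.pr Z z / prE P E := lt_of_lt_of_le hz h1
    by_contra hn
    have : P.pr Z z = 0 := le_antisymm (not_lt.1 hn) (P.pr_nonneg _ _)
    rw [this, zero_div] at h2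
    exact lt_irrefl _ h2
  intro ω
  rw [pr_id, Law.cond_w _ _ _ hz, P.cond_w _ _ hz', on_w hE]
  have hp : 0 < prE P E * (on P E).pr Z z := mul_pos hE hz
  by_cases h1 : Z ω = z
  · rw [if_pos h1, if_pos h1]
    have e : P.pr Z z / (prE P E * (on P E).pr Z z) * (P.w ω / P.pr Z z) =
        P.w ω / (prE P E * (on P E).pr Z z) := by
      field_simp
    rw [e]
    by_cases h2 : E ω
    · rw [if_pos h2]
      apply le_of_eq
      rw [div_div]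
    · rw [if_neg h2, zero_div]
      exact div_nonneg (P.nn ω) hp.le
  · rw [if_neg h1, if_neg h1, mul_zero]

/-- mean of `(1 / conditional probability of E) * f` under the conditioned law -/
theorem ex_fib_le (P : Law Ω) (E : Ω → Prop) (Z : Ω → U) (hE : 0 < prE P E) (f : U → ℝ)
    (hf : ∀ ω, 0 < P.w ω → 0 ≤ f (Z ω)) :
    (on P E).ex (fun ω => P.pr Z (Z ω) / (prE P E * (on P E).pr Z (Z ω)) * f (Z ω)) ≤
      P.ex (fun ω => f (Z ω)) / prE P E := by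
  classical
  rw [(on P E).ex_comp Z (fun z => P.pr Z z / (prE P E * (on P E).pr Z z) * f z),
    P.ex_comp Z f, Finset.sum_div]
  refine Finset.sum_le_sum fun z hz => ?_
  rcases ((on P E).pr_nonneg Z z).eq_or_lt with h0 | h0
  · rw [← h0, zero_mul]
    rcases (P.pr_nonneg Z z).eq_or_lt with h1 | h1
    · rw [← h1, zero_mul, zero_div]
    · have h2 : ∃ ω, 0 < P.w ω ∧ Z ω = z := by
        by_contra hn
        push Not at hn
        have : P.pr Z z = 0 := by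
          unfold Law.pr
          refine Finset.sum_eq_zero fun ω hω => ?_
          rcases (P.nn ω).eq_or_lt with h3 | h3
          · exact h3.symm
          · exact absurd (Finset.mem_filter.1 hω).2 (hn ω h3)
        rw [this] at h1
        exact lt_irrefl _ h1
      obtain ⟨ω, h3, h4⟩ := h2
      have h5 := hf ω h3
      rw [h4] at h5
      exact div_nonneg (mul_nonneg h1.le h5) hE.le
  · apply le_of_eq
    field_simp

/-- **THE LOCALISED M-STEP** -/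
theorem mstepE (P : Law Ω) (D : Ω → U) (Θ : Ω → V) (W : Ω → S) (e : U → S → ℝ)
    (A : U → V → S → ι → ℝ) (g h : U → V → V → ι → ℝ) (c : ι → ℝ)
    (hA : ∀ d θ₁ θ₂ w i,
      |A d θ₂ w i - A d θ₁ w i - (e d w * g d θ₁ θ₂ i + h d θ₁ θ₂ i)| ≤ c i)
    (χ : U → V → V → V → ℝ → ℝ → ℝ) (hχ0 : ∀ d θ θ₂ θ₃ x x', 0 ≤ χ d θ θ₂ θ₃ x x')
    (hχ1 : ∀ d θ θ₂ θ₃ x x', χ d θ θ₂ θ₃ x x' ≤ 1)
    (fine : U → V → (ι → ℝ) → F) (coarse : U → V → (ι → ℝ) → G) (Φ N : ℝ) (hN : 0 ≤ N)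
    (hsat : ∀ d θ θ₂ θ₃ x x', 0 < χ d θ θ₂ θ₃ x x' → ∀ (Q : Law Ω) (X : Ω → ι → ℝ) (ε₁ ε₂ : ℝ),
      Tr Q X (fun i => (x - x') * g d θ θ₂ i) (fun i => 2 * c i) ε₁ →
      Tr Q X (fun i => (x - x') * g d θ θ₃ i) (fun i => 2 * c i) ε₂ →
      Φ - N * (ε₁ + ε₂) ≤ hc Q (fun ω => fine d θ (X ω)) (fun ω => coarse d θ (X ω)))
    (R₀ : ℝ) (hΦ : Φ ≤ R₀) (hR0 : 0 ≤ R₀)
    (hR : ∀ d θ (Q : Law Ω) (X : Ω → ι → ℝ),
      hc Q (fun ω => fine d θ (X ω)) (fun ω => coarse d θ (X ω)) ≤ R₀)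
    (E : Ω → Prop) (hE : 0 < prE P E) (κ : ℝ) (hκ : 0 < κ) :
    prE (on P E) (fun ω => κ ≤ avx P D Θ W e χ (D ω) (Θ ω)) * R₀ -
      2 / prE P E * (R₀ - Φ + Real.log 2 + N / κ *
        (16 * Real.sqrt (mi P (fun ω => e (D ω) (W ω)) (fun ω => A (D ω) (Θ ω) (W ω))
          (fun ω => (D ω, Θ ω))) + 56 * Real.sqrt (mi P Θ W D))) ≤
    hc (on P E) (fun ω => fine (D ω) (Θ ω) (A (D ω) (Θ ω) (W ω)))
      (fun ω => (coarse (D ω) (Θ ω) (A (D ω) (Θ ω) (W ω)), (D ω, Θ ω))) := by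
  classical
  set Z : Ω → U × V := fun ω => (D ω, Θ ω) with hZ
  set X : Ω → F := fun ω => fine (D ω) (Θ ω) (A (D ω) (Θ ω) (W ω)) with hX
  set Y : Ω → G := fun ω => coarse (D ω) (Θ ω) (A (D ω) (Θ ω) (W ω)) with hY
  have herr0 : ∀ d θ, 0 ≤ err P D Θ W e A d θ := by
    intro d θ
    unfold err
    have h1 : ∀ θ', 0 ≤ il (P.cond D d) (fun ω' => e d (W ω')) (fun ω' => A d θ' (W ω')) := by
      intro θ'
      rw [il_eq_ex]
      exact Law.ex_nonneg _ fun ω' _ => dl_nonneg _ _ _ _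
    have h2 : 0 ≤ (P.cond D d).ex (fun ω₂ => il (P.cond D d) (fun ω' => e d (W ω'))
        (fun ω' => A d (Θ ω₂) (W ω'))) := Law.ex_nonneg _ fun ω₂ _ => h1 _
    have h3 := dl_nonneg (P.cond (fun ω => (D ω, Θ ω)) (d, θ)) W (P.cond D d) W
    linarith [h1 θ]
  let f : U × V → ℝ := fun z => R₀ - Φ + Real.log 2 + N / κ * err P D Θ W e A z.1 z.2
  have hlog : 0 < Real.log 2 := Real.log_pos (by norm_num)
  have hf0 : ∀ z, 0 ≤ f z := fun z => by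
    have := mul_nonneg (div_nonneg hN hκ.le) (herr0 z.1 z.2)
    simp only [f]
    linarith
  -- pointwise inequality
  have hpt : ∀ ω, 0 < (on P E).w ω →
      ind (κ ≤ avx P D Θ W e χ (D ω) (Θ ω)) * R₀ -
        2 * (P.pr Z (Z ω) / (prE P E * (on P E).pr Z (Z ω)) * f (Z ω)) ≤
      hc ((on P E).cond Z (Z ω)) X Y := by
    intro ω hω
    have hPω : 0 < P.w ω := (on_pos hE hω).2
    have hz : 0 < (on P E).pr Z (Z ω) := (on P E).pr_pos Z hω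
    have hdom := dom_fib P E Z hE hz
    set K := P.pr Z (Z ω) / (prE P E * (on P E).pr Z (Z ω)) with hK
    have hK1 := hdom.one_le
    have hge := hc_nonneg ((on P E).cond Z (Z ω)) X Y
    by_cases hgood : κ ≤ avx P D Θ W e χ (D ω) (Θ ω)
    · have h1 := key P D Θ W e A g h c hA χ hχ0 hχ1 fine coarse Φ N hN hsat hPω
      set a := avx P D Θ W e χ (D ω) (Θ ω) with ha
      set H := hc (P.cond Z (Z ω)) X Y with hHdef
      have ha0 : 0 < a := lt_of_lt_of_le hκ hgood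
      have h2 : Φ - N / κ * err P D Θ W e A (D ω) (Θ ω) ≤ H := by
        have h3 : a * Φ - N * err P D Θ W e A (D ω) (Θ ω) ≤ a * H := h1
        have h4 : N * err P D Θ W e A (D ω) (Θ ω) ≤
            a * (N / κ * err P D Θ W e A (D ω) (Θ ω)) := by
          have h5 : 0 ≤ N * err P D Θ W e A (D ω) (Θ ω) := mul_nonneg hN (herr0 _ _)
          have e1 : a * (N / κ * err P D Θ W e A (D ω) (Θ ω)) =
              a / κ * (N * err P D Θ W e A (D ω) (Θ ω)) := by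
            field_simp
          rw [e1]
          exact le_mul_of_one_le_left h5 ((one_le_div hκ).2 hgood)
        have h6 : a * (Φ - N / κ * err P D Θ W e A (D ω) (Θ ω)) ≤ a * H := by
          rw [mul_sub]
          linarith
        exact le_of_mul_le_mul_left h6 ha0
      have h7 := hdom.le_hc X Y R₀ (fun Q hQ => ?_)
      · have h8 : R₀ - H + Real.log 2 ≤ f (Z ω) := by
          simp only [f, hZ]
          linarith
        rw [show ind (κ ≤ a) = 1 from ind_of hgood, one_mul]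
        have h9 : hc ((on P E).cond Z (Z ω)) (X ∘ id) (Y ∘ id) =
            hc ((on P E).cond Z (Z ω)) X Y := rfl
        rw [h9] at h7
        have h10 : 2 * K * (R₀ - H + Real.log 2) ≤ 2 * K * f (Z ω) :=
          mul_le_mul_of_nonneg_left h8 (by linarith)
        have h11 : 2 * (K * f (Z ω)) = 2 * K * f (Z ω) := by ring
        rw [h11]
        linarith
      · -- `Q` is dominated by the conditional law, so `(D, Θ)` is constant on its support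
        have h12 : ∀ ω', 0 < Q.w ω' → D ω' = D ω ∧ Θ ω' = Θ ω := by
          intro ω' h'
          have h13 : 0 < (P.cond Z (Z ω)).w (id ω') := hQ.pos h'
          exact Prod.mk.inj (cond_supp P Z (P.pr_pos Z hPω) h13).1
        have h14 : hc Q X Y = hc Q (fun ω' => fine (D ω) (Θ ω) (A (D ω) (Θ ω) (W ω')))
            (fun ω' => coarse (D ω) (Θ ω) (A (D ω) (Θ ω) (W ω'))) := by
          refine hc_congr_supp (fun ω' h' => ?_) fun ω' h' => ?_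
          · simp only [hX]
            rw [(h12 ω' h').1, (h12 ω' h').2]
          · simp only [hY]
            rw [(h12 ω' h').1, (h12 ω' h').2]
        rw [h14]
        exact hR _ _ _ _
    · rw [show ind (κ ≤ avx P D Θ W e χ (D ω) (Θ ω)) = 0 from ind_not hgood, zero_mul]
      have h1 : 0 ≤ K * f (Z ω) := mul_nonneg (by linarith) (hf0 _)
      linarith
  -- average
  rw [hc_cond_ex (on P E) X Y Z]
  have h1 := (on P E).ex_mono hpt
  refine le_trans ?_ h1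
  rw [Law.ex_sub, Law.ex_const_mul]
  have h2 := ex_fib_le P E Z hE f (fun ω _ => hf0 _)
  have h3 : P.ex (fun ω => f (Z ω)) ≤ R₀ - Φ + Real.log 2 + N / κ *
      (16 * Real.sqrt (mi P (fun ω => e (D ω) (W ω)) (fun ω => A (D ω) (Θ ω) (W ω))
        (fun ω => (D ω, Θ ω))) + 56 * Real.sqrt (mi P Θ W D)) := by
    simp only [f, hZ]
    rw [P.ex_add, P.ex_const, P.ex_const_mul]
    have := mul_le_mul_of_nonneg_left (err_mean P D Θ W e A) (div_nonneg hN hκ.le)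
    linarith
  have h4 : (on P E).ex (fun ω => ind (κ ≤ avx P D Θ W e χ (D ω) (Θ ω)) * R₀) =
      prE (on P E) (fun ω => κ ≤ avx P D Θ W e χ (D ω) (Θ ω)) * R₀ := by
    have e1 : (fun ω => ind (κ ≤ avx P D Θ W e χ (D ω) (Θ ω)) * R₀) =
        fun ω => R₀ * ind (κ ≤ avx P D Θ W e χ (D ω) (Θ ω)) := by
      funext ω
      ring
    rw [e1, Law.ex_const_mul, mul_comm]
    congr 1
    unfold Law.ex prE
    rw [Finset.sum_filter]
    refine Finset.sum_congr rfl fun ω _ => ?_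
    dsimp only
    by_cases hp : κ ≤ avx P D Θ W e χ (D ω) (Θ ω)
    · rw [ind_of hp, mul_one, if_pos hp]
    · rw [ind_not hp, mul_zero, if_neg hp]
  rw [h4]
  have h5 : (on P E).ex (fun ω => P.pr Z (Z ω) / (prE P E * (on P E).pr Z (Z ω)) * f (Z ω)) ≤
      (R₀ - Φ + Real.log 2 + N / κ *
      (16 * Real.sqrt (mi P (fun ω => e (D ω) (W ω)) (fun ω => A (D ω) (Θ ω) (W ω))
        (fun ω => (D ω, Θ ω))) + 56 * Real.sqrt (mi P Θ W D))) / prE P E :=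
    h2.trans (div_le_div_of_nonneg_right h3 hE.le)
  have h6 : 2 / prE P E * (R₀ - Φ + Real.log 2 + N / κ *
      (16 * Real.sqrt (mi P (fun ω => e (D ω) (W ω)) (fun ω => A (D ω) (Θ ω) (W ω))
        (fun ω => (D ω, Θ ω))) + 56 * Real.sqrt (mi P Θ W D))) =
      2 * ((R₀ - Φ + Real.log 2 + N / κ *
      (16 * Real.sqrt (mi P (fun ω => e (D ω) (W ω)) (fun ω => A (D ω) (Θ ω) (W ω))
        (fun ω => (D ω, Θ ω))) + 56 * Real.sqrt (mi P Θ W D))) / prE P E) := by ring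
  rw [h6]
  linarith

end Vale.Agent.P127.U.H715
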